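import Vale.Agent.P257.Bdl.B1

open CategoryTheory Limits Pretriangulated Vale.Agent.P257.S

universe v u

theorem Vale.Agent.Results.P257.Smith.result (p : ℕ) [Fact p.Prime] (R : Type) [CommRing R]
    [(Ideal.span {(p : ℤ)}).IsPrime] [IsLocalization.AtPrime R (Ideal.span {(p : ℤ)})]
    (B : BPBP p (MvPolynomial ℕ R)) (hB : B.v = gen (p : R))
    (T : Type u) [Category.{v} T] [HasZeroObject T] [Preadditive T]
    [HasShift T ℤ] [∀ n : ℤ, (shiftFunctor T n).Additive] [Pretriangulated T] [IsTriangulated T]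
    [HasCountableCoproducts T] (S : T) (h : T ⥤ ModuleCat.{0} (MvPolynomial ℕ R))
    [h.IsHomological] [PreservesColimitsOfShape (Discrete ℕ) h]
    (C : ∀ X, Comod B (h.obj X)) (hh : IsBPHomology S h C) :
    (∃! B : BPBP p (MvPolynomial ℕ R), B.v = gen (p : R)) ∧
    let L : T → Prop := fun X => ∀ m : ℕ, m.Coprime p → IsIso (m • 𝟙 X)
    let F : T → Prop := fun X => ∃ (A B : T) (ι : A ⟶ B) (i : X ⟶ B) (r : B ⟶ X),
      (∀ P : T → Prop, (∀ Y, IsZero Y → P Y) →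
        (∀ D ∈ distTriang T, (∃ n : ℤ, Nonempty (D.obj₁ ≅ S⟦n⟧)) → P D.obj₂ → P D.obj₃) → P A) ∧
      L B ∧ (∀ Z, L Z → Function.Bijective fun g : B ⟶ Z => ι ≫ g) ∧ i ≫ r = 𝟙 X
    let V : ℕ → ℤ → (X : T) → h.obj X → Prop := fun n k X g => F X ∧ IsCyclic (C X) (n + 1) k g
    (∀ m n : ℕ, m ≤ n → (∃ X g, V n 0 X g) → ∃ X g, V m 0 X g) ∧
    (∀ (n : ℕ) (X : T), (∃ g, V (n + 1) 0 X g) ↔ ∃ D ∈ distTriang T, ∃ w y, D.obj₃ = X ∧
      V n (vdeg p (n + 1)) D.obj₁ w ∧ V n 0 D.obj₂ y ∧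
        (h.map D.mor₁).hom w = B.v (n + 1) • y) ∧
    ∀ (n : ℕ) (X : T) (x : h.obj X), F X → x ∈ (C X).deg 0 →
      (∀ j < ∑ i ∈ Finset.range (n + 1), (vdeg p i + 1),
        (∀ y ∈ (C X).deg j, ∃ a : MvPolynomial ℕ R, y = a • x) ∧
        ∀ a : MvPolynomial ℕ R, a.IsWeightedHomogeneous (fun i => vdeg p (i + 1)) j →
          (a • x = 0 ↔ a ∈ Ideal.span {b | ∃ i < n + 1, b = B.v i})) →
      ∃ (Y : T) (f : Y ⟶ X) (y : h.obj Y), V n 0 Y y ∧ (h.map f).hom y = x :=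
  main_theorem hB hh
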